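import Vale.Agent.P066.MathlibUsed

set_option autoImplicit false

namespace Vale.Agent.P066

open Finset

/-- The natural unit interval graph `G(h)` on `Fin n`: for `i < j`, the pair `{i, j}` is an edge
iff `j ≤ h i`. -/
def unitIntervalGraph {n : ℕ} (h : Fin n → Fin n) : SimpleGraph (Fin n) where
  Adj i j := (i < j ∧ j ≤ h i) ∨ (j < i ∧ i ≤ h j)
  symm := ⟨fun _ _ hij => hij.symm⟩
  loopless := ⟨fun i hi => by rcases hi with hi | hi <;> exact lt_irrefl i hi.1⟩

/-- `asc G f` is the number of edges `{a, b}` of `G`, `a < b`, with `f a < f b`. -/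
noncomputable def asc {n N : ℕ} (G : SimpleGraph (Fin n)) (f : Fin n → Fin N) : ℕ := by
  classical
  exact #{p : Fin n × Fin n | p.1 < p.2 ∧ G.Adj p.1 p.2 ∧ f p.1 < f p.2}

/-- The chromatic quasisymmetric function of `G` in the `N` variables `x_0, …, x_{N-1}`:
the sum over proper colourings `f` with colours in `Fin N` of `q ^ asc f * ∏ x_{f a}`.
The coefficient ring is `ℤ[q]`. -/
noncomputable def chromaticQSF {n : ℕ} (G : SimpleGraph (Fin n)) (N : ℕ) :
    MvPolynomial (Fin N) (Polynomial ℤ) := by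
  classical
  exact ∑ f : Fin n → Fin N with (∀ a b, G.Adj a b → f a ≠ f b),
    MvPolynomial.C (Polynomial.X ^ asc G f) * ∏ a, MvPolynomial.X (f a)

end Vale.Agent.P066
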