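import Mathlib.Algebra.AffineMonoid.Basic
import Mathlib.Algebra.AffineMonoid.UniqueSums
import Mathlib.Combinatorics.SimpleGraph.Clique
import Mathlib.Order.Partition.Basic
import Mathlib.RingTheory.MvPolynomial.Symmetric.FundamentalTheorem
import Mathlib.Tactic

/-! The part of Mathlib that the development of this folder uses. -/
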